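import Vale.Agent.Lib.P089.Interface

/-!
# P089, part Ch: Cheeger inequality with Dirichlet boundary
-/

namespace P089

open scoped Classical

section

variable {S V : Type} [Fintype S] {act : V → S → V} {lk : V → S → Prop}

/-- co-area formula (by removing the minimum of `g` on its support) -/
private theorem Ch_coarea {d : ℕ} {c : ℝ} {U : Set V}
    (h : ∀ F : Finset V, (∀ v ∈ F, v ∈ U) →
      (((F ×ˢ (Finset.univ : Finset S)).filter
        fun p => lk p.1 p.2 ∧ act p.1 p.2 ∈ F).card : ℝ) ≤ (d - c) * F.card) :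
    ∀ (n : ℕ) (W : Finset V) (g : V → ℝ), W.card = n → (∀ v ∈ W, v ∈ U) → (∀ v, 0 ≤ g v) →
      (∀ v, v ∉ W → g v = 0) →
      ∑ v ∈ W, ∑ s, (if lk v s then min (g v) (g (act v s)) else 0)
        ≤ (d - c) * ∑ v ∈ W, g v := by
  intro n
  induction n with
  | zero =>
    intro W g hW _ _ _
    rw [Finset.card_eq_zero.1 hW]
    simp
  | succ n ih =>
    intro W g hW hWU hg0 hgW
    have hne : W.Nonempty := by
      rw [← Finset.card_pos]
      omega
    obtain ⟨v0, hv0, hmin⟩ := Finset.exists_min_image W g hne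
    obtain ⟨μ, hμ⟩ : ∃ μ : ℝ, μ = g v0 := ⟨_, rfl⟩
    rw [← hμ] at hmin
    have hμ0 : 0 ≤ μ := hμ ▸ hg0 v0
    obtain ⟨g', hg'⟩ : ∃ g' : V → ℝ, g' = fun v => if v ∈ W then g v - μ else 0 := ⟨_, rfl⟩
    have g'1 : ∀ v, v ∈ W → g' v = g v - μ := fun v hv => by rw [hg']; exact if_pos hv
    have g'2 : ∀ v, v ∉ W → g' v = 0 := fun v hv => by rw [hg']; exact if_neg hv
    have g'3 : g' v0 = 0 := by rw [g'1 v0 hv0, hμ, sub_self]
    have g'0 : ∀ v, 0 ≤ g' v := by
      intro v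
      by_cases hv : v ∈ W
      · rw [g'1 v hv]
        exact sub_nonneg.2 (hmin v hv)
      · rw [g'2 v hv]
    have h1 := ih (W.erase v0) g' (by rw [Finset.card_erase_of_mem hv0, hW]; rfl)
      (fun v hv => hWU v (Finset.mem_of_mem_erase hv)) g'0 (by
        intro v hv
        by_cases hvW : v ∈ W
        · have : v = v0 := by
            by_contra hne
            exact hv (Finset.mem_erase.2 ⟨hne, hvW⟩)
          rw [this, g'3]
        · exact g'2 v hvW)
    have h2 := h W hWU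
    have e1 : ∑ v ∈ W, ∑ s, (if lk v s then min (g' v) (g' (act v s)) else 0)
        = ∑ v ∈ W.erase v0, ∑ s, (if lk v s then min (g' v) (g' (act v s)) else 0) := by
      rw [← Finset.add_sum_erase W _ hv0]
      have : ∑ s, (if lk v0 s then min (g' v0) (g' (act v0 s)) else 0) = 0 :=
        Finset.sum_eq_zero fun s _ => by
          split_ifs
          · rw [g'3, min_eq_left (g'0 _)]
          · rfl
      rw [this, zero_add]
    have e2 : ∑ v ∈ W, g' v = ∑ v ∈ W.erase v0, g' v := by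
      rw [← Finset.add_sum_erase W _ hv0, g'3, zero_add]
    have e3 : ∑ v ∈ W, g' v = ∑ v ∈ W, g v - μ * W.card := by
      rw [Finset.sum_congr rfl g'1, Finset.sum_sub_distrib, Finset.sum_const, nsmul_eq_mul,
        mul_comm]
    have e4 : (((W ×ˢ (Finset.univ : Finset S)).filter
        fun p => lk p.1 p.2 ∧ act p.1 p.2 ∈ W).card : ℝ)
        = ∑ v ∈ W, ∑ s, (if lk v s ∧ act v s ∈ W then (1 : ℝ) else 0) := by
      rw [Finset.card_filter, Nat.cast_sum, Finset.sum_product]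
      refine Finset.sum_congr rfl fun v _ => Finset.sum_congr rfl fun s _ => ?_
      split_ifs <;> simp
    have e5 : ∑ v ∈ W, ∑ s, (if lk v s then min (g v) (g (act v s)) else 0)
        = μ * ∑ v ∈ W, ∑ s, (if lk v s ∧ act v s ∈ W then (1 : ℝ) else 0)
          + ∑ v ∈ W, ∑ s, (if lk v s then min (g' v) (g' (act v s)) else 0) := by
      rw [Finset.mul_sum, ← Finset.sum_add_distrib]
      refine Finset.sum_congr rfl fun v hv => ?_
      rw [Finset.mul_sum, ← Finset.sum_add_distrib]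
      refine Finset.sum_congr rfl fun s _ => ?_
      by_cases h3 : lk v s
      · by_cases h4 : act v s ∈ W
        · rw [if_pos h3, if_pos ⟨h3, h4⟩, if_pos h3, g'1 v hv, g'1 _ h4, min_sub_sub_right]
          ring
        · rw [if_pos h3, if_neg (fun h5 => h4 h5.2), if_pos h3, g'2 _ h4, hgW _ h4,
            min_eq_right (hg0 v), min_eq_right (g'0 v)]
          ring
      · rw [if_neg h3, if_neg (fun h5 => h3 h5.1), if_neg h3]
        ring
    rw [e4] at h2
    rw [← e1, ← e2, e3] at h1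
    rw [e5]
    have h5 := mul_le_mul_of_nonneg_left h2 hμ0
    linarith

/-- scalar inequality -/
private theorem Ch_scalar {x y l : ℝ} (hx : 0 ≤ x) (hy : 0 ≤ y) :
    2 * l * (x ^ 2 + y ^ 2 - 2 * min (x ^ 2) (y ^ 2)) ≤ (x - y) ^ 2 + l ^ 2 * (x + y) ^ 2 := by
  rcases le_total x y with h | h
  · have h1 : x ^ 2 ≤ y ^ 2 := pow_le_pow_left₀ hx h 2
    rw [min_eq_left h1]
    nlinarith [sq_nonneg ((y - x) - l * (x + y))]
  · have h1 : y ^ 2 ≤ x ^ 2 := pow_le_pow_left₀ hy h 2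
    rw [min_eq_right h1]
    nlinarith [sq_nonneg ((x - y) - l * (x + y))]

private theorem Ch_sumY (h1 : ∀ v s, act (act v s) s = v) (h2 : ∀ v s, lk v s → lk (act v s) s)
    (W : Finset V) (a : V → ℝ) (ha : ∀ v, v ∉ W → a v = 0) :
    ∑ v ∈ W, ∑ s, (if lk v s then a (act v s) ^ 2 else 0)
      ≤ ∑ v ∈ W, ∑ s, (if lk v s then a v ^ 2 else 0) := by
  obtain ⟨P, hP⟩ : ∃ P : Finset (V × S), P = (W ×ˢ (Finset.univ : Finset S)).filter
      fun p => lk p.1 p.2 ∧ act p.1 p.2 ∈ W := ⟨_, rfl⟩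
  have hmem : ∀ p : V × S, p ∈ P ↔ p.1 ∈ W ∧ lk p.1 p.2 ∧ act p.1 p.2 ∈ W := by
    intro p
    rw [hP, Finset.mem_filter, Finset.mem_product]
    simp
  have e1 : ∑ v ∈ W, ∑ s, (if lk v s then a (act v s) ^ 2 else 0)
      = ∑ p ∈ P, a (act p.1 p.2) ^ 2 := by
    rw [hP, Finset.sum_filter, Finset.sum_product]
    refine Finset.sum_congr rfl fun v _ => Finset.sum_congr rfl fun s _ => ?_
    by_cases h3 : lk v s
    · by_cases h4 : act v s ∈ W
      · rw [if_pos h3, if_pos ⟨h3, h4⟩]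
      · rw [if_pos h3, if_neg (fun h5 => h4 h5.2), ha _ h4]
        norm_num
    · rw [if_neg h3, if_neg (fun h5 => h3 h5.1)]
  have e2 : ∑ p ∈ P, a (act p.1 p.2) ^ 2 = ∑ p ∈ P, a p.1 ^ 2 := by
    refine Finset.sum_nbij' (fun p => (act p.1 p.2, p.2)) (fun p => (act p.1 p.2, p.2))
      ?_ ?_ ?_ ?_ ?_
    · intro p hp
      rw [hmem] at hp ⊢
      refine ⟨hp.2.2, h2 _ _ hp.2.1, ?_⟩
      change act (act p.1 p.2) p.2 ∈ W
      rw [h1]
      exact hp.1
    · intro p hp
      rw [hmem] at hp ⊢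
      refine ⟨hp.2.2, h2 _ _ hp.2.1, ?_⟩
      change act (act p.1 p.2) p.2 ∈ W
      rw [h1]
      exact hp.1
    · intro p _
      change (act (act p.1 p.2) p.2, p.2) = p
      rw [h1]
    · intro p _
      change (act (act p.1 p.2) p.2, p.2) = p
      rw [h1]
    · intro p _
      rfl
  rw [e1, e2, hP, Finset.sum_filter, Finset.sum_product]
  refine Finset.sum_le_sum fun v _ => Finset.sum_le_sum fun s _ => ?_
  by_cases h3 : lk v s
  · rw [if_pos h3]
    split_ifs
    · exact le_rfl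
    · exact sq_nonneg _
  · rw [if_neg h3, if_neg (fun h5 => h3 h5.1)]

private theorem Ch_sumX {d : ℕ} (h3 : ∀ v, (Finset.univ.filter (lk v)).card ≤ d)
    (W : Finset V) (a : V → ℝ) :
    ∑ v ∈ W, ∑ s, (if lk v s then a v ^ 2 else 0) ≤ d * ∑ v ∈ W, a v ^ 2 := by
  rw [Finset.mul_sum]
  refine Finset.sum_le_sum fun v _ => ?_
  rw [← Finset.sum_filter, Finset.sum_const, nsmul_eq_mul]
  exact mul_le_mul_of_nonneg_right (by exact_mod_cast h3 v) (sq_nonneg _)

end

theorem partCh : PartCh := by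
  intro d c hc
  obtain ⟨l, hl⟩ : ∃ l : ℝ, l = c / (2 * d + 1) := ⟨_, rfl⟩
  have hl0 : 0 < l := by rw [hl]; positivity
  have hld : 2 * (l * d) ≤ c := by
    have h1 : l * (2 * d + 1) = c := by
      rw [hl]
      exact div_mul_cancel₀ c (by positivity)
    nlinarith
  refine ⟨c * l, by positivity, ?_⟩
  intro S V _ act lk h1 h2 h3 U h f hf
  obtain ⟨W, hW⟩ : ∃ W : Finset V, W = f.support := ⟨_, rfl⟩
  rw [← hW] at hf ⊢
  obtain ⟨a, ha⟩ : ∃ a : V → ℝ, a = fun v => |f v| := ⟨_, rfl⟩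
  have ha0 : ∀ v, 0 ≤ a v := fun v => by rw [ha]; exact abs_nonneg _
  have haW : ∀ v, v ∉ W → a v = 0 := by
    intro v hv
    rw [hW, Finsupp.notMem_support_iff] at hv
    rw [ha]
    change |f v| = 0
    rw [hv, abs_zero]
  have ha2 : ∀ v, f v ^ 2 = a v ^ 2 := fun v => by rw [ha]; exact (sq_abs _).symm
  -- the sums
  obtain ⟨N, hN⟩ : ∃ N : ℝ, N = ∑ v ∈ W, a v ^ 2 := ⟨_, rfl⟩
  obtain ⟨X, hX⟩ : ∃ X : ℝ, X = ∑ v ∈ W, ∑ s, (if lk v s then a v ^ 2 else 0) := ⟨_, rfl⟩
  obtain ⟨Y, hY⟩ : ∃ Y : ℝ, Y = ∑ v ∈ W, ∑ s, (if lk v s then a (act v s) ^ 2 else 0) := ⟨_, rfl⟩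
  obtain ⟨P, hP⟩ : ∃ P : ℝ, P = ∑ v ∈ W, ∑ s, (if lk v s then a v * a (act v s) else 0) :=
    ⟨_, rfl⟩
  obtain ⟨M, hM⟩ : ∃ M : ℝ, M = ∑ v ∈ W, ∑ s,
      (if lk v s then min (a v ^ 2) (a (act v s) ^ 2) else 0) := ⟨_, rfl⟩
  have bX : X ≤ d * N := by rw [hX, hN]; exact Ch_sumX h3 W a
  have bY : Y ≤ X := by rw [hX, hY]; exact Ch_sumY h1 h2 W a haW
  have bM : M ≤ (d - c) * N := by
    rw [hM, hN]
    exact Ch_coarea h W.card W (fun v => a v ^ 2) rfl hf (fun v => sq_nonneg _) (fun v hv => by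
      rw [haW v hv]
      norm_num)
  have hN0 : 0 ≤ N := by rw [hN]; exact Finset.sum_nonneg fun v _ => sq_nonneg _
  -- summing the scalar inequality
  have key : 2 * l * (X + Y - 2 * M) ≤ (X + Y - 2 * P) + l ^ 2 * (X + Y + 2 * P) := by
    have e1 : 2 * l * (X + Y - 2 * M) = ∑ v ∈ W, ∑ s, (if lk v s then
        2 * l * (a v ^ 2 + a (act v s) ^ 2 - 2 * min (a v ^ 2) (a (act v s) ^ 2)) else 0) := by
      rw [hX, hY, hM, ← Finset.sum_add_distrib, Finset.mul_sum, ← Finset.sum_sub_distrib,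
        Finset.mul_sum]
      refine Finset.sum_congr rfl fun v _ => ?_
      rw [← Finset.sum_add_distrib, Finset.mul_sum, ← Finset.sum_sub_distrib, Finset.mul_sum]
      refine Finset.sum_congr rfl fun s _ => ?_
      split_ifs <;> ring
    have e2 : (X + Y - 2 * P) + l ^ 2 * (X + Y + 2 * P) = ∑ v ∈ W, ∑ s, (if lk v s then
        (a v - a (act v s)) ^ 2 + l ^ 2 * (a v + a (act v s)) ^ 2 else 0) := by
      rw [hX, hY, hP, ← Finset.sum_add_distrib, Finset.mul_sum, ← Finset.sum_sub_distrib,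
        ← Finset.sum_add_distrib, Finset.mul_sum, ← Finset.sum_add_distrib]
      refine Finset.sum_congr rfl fun v _ => ?_
      rw [← Finset.sum_add_distrib, Finset.mul_sum, ← Finset.sum_sub_distrib,
        ← Finset.sum_add_distrib, Finset.mul_sum, ← Finset.sum_add_distrib]
      refine Finset.sum_congr rfl fun s _ => ?_
      split_ifs <;> ring
    rw [e1, e2]
    refine Finset.sum_le_sum fun v _ => Finset.sum_le_sum fun s _ => ?_
    split_ifs
    · exact Ch_scalar (ha0 _) (ha0 _)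
    · exact le_rfl
  have bP : 2 * P ≤ X + Y := by
    have e1 : X + Y - 2 * P = ∑ v ∈ W, ∑ s, (if lk v s then (a v - a (act v s)) ^ 2 else 0) := by
      rw [hX, hY, hP, ← Finset.sum_add_distrib, Finset.mul_sum, ← Finset.sum_sub_distrib]
      refine Finset.sum_congr rfl fun v _ => ?_
      rw [← Finset.sum_add_distrib, Finset.mul_sum, ← Finset.sum_sub_distrib]
      refine Finset.sum_congr rfl fun s _ => ?_
      split_ifs <;> ring
    have e2 : 0 ≤ X + Y - 2 * P := by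
      rw [e1]
      refine Finset.sum_nonneg fun v _ => Finset.sum_nonneg fun s _ => ?_
      split_ifs
      · exact sq_nonneg _
      · exact le_rfl
    linarith
  have hD : d * N - P ≤ ∑ v ∈ W, (d * f v ^ 2 - ∑ s, if lk v s then f v * f (act v s) else 0) := by
    rw [hN, hP, Finset.mul_sum, ← Finset.sum_sub_distrib]
    refine Finset.sum_le_sum fun v _ => ?_
    rw [ha2 v]
    refine sub_le_sub_left (Finset.sum_le_sum fun s _ => ?_) _
    split_ifs
    · have h5 := le_abs_self (f v * f (act v s))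
      rw [abs_mul] at h5
      rw [ha]
      exact h5
    · exact le_rfl
  have hL : ∑ v ∈ W, f v ^ 2 = N := by
    rw [hN]
    exact Finset.sum_congr rfl fun v _ => ha2 v
  rw [hL]
  refine le_trans ?_ hD
  have a1 : 0 ≤ (2 * (d * N) - (X + Y)) * (1 - l) ^ 2 :=
    mul_nonneg (by linarith) (sq_nonneg _)
  have a2 : 0 ≤ l * ((d - c) * N - M) := mul_nonneg hl0.le (by linarith)
  have a3 : 0 ≤ l ^ 2 * (2 * (d * N) - 2 * P) := mul_nonneg (sq_nonneg l) (by linarith)
  have a4 : 0 ≤ l * N * (c - 2 * (l * d)) := mul_nonneg (mul_nonneg hl0.le hN0) (by linarith)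
  nlinarith

end P089
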